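import Vale.Agent.P141.H120.LabK
import Vale.Agent.P141.H305.Top0
import Vale.Agent.P141.H579.LowB

/-!
# P141, the price with one low vector edge on the boxes

* `Pos2K`: the forced role weight for one position (`L²` slot in the middle);
* `box_of_pos2K`, `box_low`: the price of centre data at the positions `1 0 2` with one low
  vector edge.
-/

namespace Vale.Agent.P141.H120

open Finset
open Vale.Agent.P141.PL (Pt)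
open Vale.Agent.P141.PL.H315 (avg avg_nonneg atm e12 e13 e23 Tri cube3 iv)
open Vale.Agent.P141.H922 (n2 n4 nN pw3 wP pw3_nonneg n2_nonneg n4_nonneg nN_nonneg)
open Vale.Agent.P141.H572
open Vale.Agent.P141.H639 (cenf co)
open Vale.Agent.P141.H971 (Cen)
open Vale.Agent.P141.H48 (US ES cos0 prE)
open Vale.Agent.P141.H305 (prE_le)

noncomputable section

/-- **The forced role weight**, one position. -/
def Pos2K : Prop :=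
  ∀ ε cP : ℝ, 0 < ε → ε ≤ 1 / 8 → 0 ≤ cP → ∃ A : ℝ, 0 ≤ A ∧ ∀ k : ℝ, 0 < k → k ≤ 1 →
  ∀ (n : ℕ) (t1 t3 e1 e2 e3 : ℝ) (F1 F2 F3 : ℕ → Pt → ℝ), US n t1 e1 cP F1 → US n t3 e3 cP F3 →
    ES n e2 cP F2 → ∀ o : ℤ, o = 1 ∨ o = -1 → ∀ K ≤ n, ∀ (x : Pt) (u : Tri),
    cos0 o K x u F1 F2 F3 ≤ A * prE ε t1 t3 e1 e3 e2 *
      (8 ^ K * (k ^ (-(8 * ε)) * X1 (cube3 K x) u + k * pw3 (cube3 K x) u))

theorem pos2K_all : Pos2K := by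
  intro ε cP hε hε' hcP
  refine ⟨2 * H48.cG H48.Lam0 cP 240000 H498.cEng ε, ?_, ?_⟩
  · have := H48.cG_nonneg (Λ := H48.Lam0) (cP := cP) (K0 := 240000) (C := H498.cEng) hcP
      (by norm_num) H498.cEng_nonneg hε
    positivity
  · intro k hk hk1 n t1 t3 e1 e2 e3 F1 F2 F3 h1 h3 h2 o ho K hK x u
    have h := H579.pos2K hε hε' hcP n t1 t3 e1 e2 e3 F1 F2 F3 h1 h3 h2 o ho k hk hk1 K hK x u
    refine h.trans_eq ?_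
    unfold H579.wK
    rw [PL.H315.card_cube3]
    push_cast
    rfl

/-- the numbers of the low edge -/
theorem low_num {β ε : ℝ} (hβ : 0 < β) (hβ1 : β ≤ 1) (hε : ε ≤ 1 / 16) :
    (β ^ (1 / 4 : ℝ)) ^ (-(8 * ε)) * √√β + β ^ (1 / 4 : ℝ) ≤ 2 * β ^ (1 / 8 : ℝ) := by
  have h1 : √√β = β ^ (1 / 4 : ℝ) := by
    rw [Real.sqrt_eq_rpow, Real.sqrt_eq_rpow, ← Real.rpow_mul hβ.le]
    norm_num
  have h2 : (β ^ (1 / 4 : ℝ)) ^ (-(8 * ε)) * β ^ (1 / 4 : ℝ) ≤ β ^ (1 / 8 : ℝ) := by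
    rw [← Real.rpow_mul hβ.le, ← Real.rpow_add hβ]
    refine Real.rpow_le_rpow_of_exponent_ge hβ hβ1 ?_
    linarith
  have h3 : β ^ (1 / 4 : ℝ) ≤ β ^ (1 / 8 : ℝ) :=
    Real.rpow_le_rpow_of_exponent_ge hβ hβ1 (by norm_num)
  rw [h1]
  linarith

/-- **The price of centre data with one low vector edge.** -/
theorem box_of_pos2K (H : Pos2K) :
    ∀ c η : ℝ, 0 ≤ c → c ≤ 1 → 0 < η → η ≤ 1 / 40 → ∀ Kt e cP e0 : ℝ, 0 < Kt → 1 ≤ e → 0 ≤ cP →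
      0 < e0 → ∃ C : ℝ, 0 ≤ C ∧ ∀ t : ℝ, 0 < t → t ≤ 1 → ∀ (n : ℕ) (ez : ℝ)
      (F1 F2 F3 : ℕ → Pt → ℝ), US n (Kt * t ^ (1 - c)) e cP F1 → US n (Kt * t ^ (1 - c)) e cP F3 →
      ES n ez cP F2 → ∀ o : ℤ, o = 1 ∨ o = -1 → ∀ K ≤ n, ∀ (x : Pt) (V : Type)
      [NormedAddCommGroup V] [InnerProductSpace ℝ V] [FiniteDimensional ℝ V] (h p W β : ℝ)
      (g : ℤ → ℤ → ℝ) (u v : ℤ → ℤ → V), 0 ≤ h → 0 ≤ p → 0 ≤ W → 0 < β → β ≤ 1 →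
      Cen (iv K x.1) (iv K x.2.2) (iv K x.2.1) h p e0 W g u v →
      ((∀ z ∈ iv K x.2.1, ∀ y ∈ iv K x.1, ‖u z y‖ ^ 2 ≤ β ^ 2 * (h ^ 2 * e0)) ∨
        ∀ z ∈ iv K x.2.1, ∀ y ∈ iv K x.2.2, ‖v z y‖ ^ 2 ≤ β ^ 2 * (h ^ 2 * e0)) →
      cosF o K x (cenf 1 0 2 g u v) (fun k _ => F1 k) (fun k _ => F2 k) (fun k _ => F3 k) ≤
        C * (t ^ (1 - c - η) * β ^ (1 / 8 : ℝ) * (√h * (p ^ 2 * √p)) * √ez * 8 ^ K) := by
  intro c η hc hc1 hη hη1 Kt e cP e0 hKt he hcP he0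
  obtain ⟨A, hA, H⟩ := H (η / 2) cP (by linarith) (by linarith) hcP
  set B : ℝ := (Kt * Kt) ^ (1 / 2 - η / 2) * (e * e) ^ (1 / 4 + η / 2 / 2) with hB
  have hB0 : 0 ≤ B := by
    have h3 : 0 ≤ (Kt * Kt) ^ (1 / 2 - η / 2) := by positivity
    have h4 : 0 ≤ (e * e) ^ (1 / 4 + η / 2 / 2) := Real.rpow_nonneg (by positivity) _
    positivity
  refine ⟨18 * e0 * (A * B) * 2, by positivity, ?_⟩
  intro t ht ht1 n ez F1 F2 F3 h1 h3 h2 o ho K hK x V _ _ _ h p W β g u v hh hp hW hβ hβ1 hcen hlow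
  have hez : 0 ≤ ez := h2.1
  have hk : 0 < β ^ (1 / 4 : ℝ) := Real.rpow_pos_of_pos hβ _
  have hk1 : β ^ (1 / 4 : ℝ) ≤ 1 := Real.rpow_le_one hβ.le hβ1 (by norm_num)
  have hprE := prE_le (ε := η / 2) (Kt := Kt) (e := e) (ez := ez) hKt ht ht1 hc (by linarith)
    (by linarith)
  have hprE0 : 0 ≤ prE (η / 2) (Kt * t ^ (1 - c)) (Kt * t ^ (1 - c)) e e ez := by
    unfold prE
    have h3 : 0 ≤ (Kt * t ^ (1 - c) * (Kt * t ^ (1 - c))) ^ (1 / 2 - η / 2) := by positivity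
    have h4 : 0 ≤ (e * e) ^ (1 / 4 + η / 2 / 2) := Real.rpow_nonneg (by positivity) _
    positivity
  have hP0 : 0 ≤ A * prE (η / 2) (Kt * t ^ (1 - c)) (Kt * t ^ (1 - c)) e e ez :=
    mul_nonneg hA hprE0
  have key := cosF_cen_low (o := o) (K := K) (x := x) (F1 := fun k _ => F1 k)
    (F2 := fun k _ => F2 k) (F3 := fun k _ => F3 k) hP0 (Real.rpow_nonneg hk.le (-(8 * (η / 2))))
    hk.le (fun a => H _ hk hk1 n _ _ e ez e F1 F2 F3 h1 h3 h2 o ho K hK x a) hh hp he0.le hβ.le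
    hcen hlow
  refine key.trans ?_
  have hn := low_num (ε := η / 2) hβ hβ1 (by linarith)
  have hX : 0 ≤ √h * (p ^ 2 * √p) := by positivity
  have hβ8 : 0 ≤ β ^ (1 / 8 : ℝ) := Real.rpow_nonneg hβ.le _
  have e1 : t ^ (1 - c - 2 * (η / 2)) = t ^ (1 - c - η) := by
    congr 1
    ring
  rw [e1] at hprE
  calc 18 * e0 * (A * prE (η / 2) (Kt * t ^ (1 - c)) (Kt * t ^ (1 - c)) e e ez) *
        (8 ^ K * (((β ^ (1 / 4 : ℝ)) ^ (-(8 * (η / 2))) * √√β + β ^ (1 / 4 : ℝ)) *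
          (√h * (p ^ 2 * √p))))
      ≤ 18 * e0 * (A * (B * (t ^ (1 - c - η) * √ez))) *
        (8 ^ K * ((2 * β ^ (1 / 8 : ℝ)) * (√h * (p ^ 2 * √p)))) := by
        gcongr
    _ = _ := by ring

/-- **The price of centre data with one low vector edge**, unconditional. -/
theorem box_low :
    ∀ c η : ℝ, 0 ≤ c → c ≤ 1 → 0 < η → η ≤ 1 / 40 → ∀ Kt e cP e0 : ℝ, 0 < Kt → 1 ≤ e → 0 ≤ cP →
      0 < e0 → ∃ C : ℝ, 0 ≤ C ∧ ∀ t : ℝ, 0 < t → t ≤ 1 → ∀ (n : ℕ) (ez : ℝ)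
      (F1 F2 F3 : ℕ → Pt → ℝ), US n (Kt * t ^ (1 - c)) e cP F1 → US n (Kt * t ^ (1 - c)) e cP F3 →
      ES n ez cP F2 → ∀ o : ℤ, o = 1 ∨ o = -1 → ∀ K ≤ n, ∀ (x : Pt) (V : Type)
      [NormedAddCommGroup V] [InnerProductSpace ℝ V] [FiniteDimensional ℝ V] (h p W β : ℝ)
      (g : ℤ → ℤ → ℝ) (u v : ℤ → ℤ → V), 0 ≤ h → 0 ≤ p → 0 ≤ W → 0 < β → β ≤ 1 →
      Cen (iv K x.1) (iv K x.2.2) (iv K x.2.1) h p e0 W g u v →
      ((∀ z ∈ iv K x.2.1, ∀ y ∈ iv K x.1, ‖u z y‖ ^ 2 ≤ β ^ 2 * (h ^ 2 * e0)) ∨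
        ∀ z ∈ iv K x.2.1, ∀ y ∈ iv K x.2.2, ‖v z y‖ ^ 2 ≤ β ^ 2 * (h ^ 2 * e0)) →
      cosF o K x (cenf 1 0 2 g u v) (fun k _ => F1 k) (fun k _ => F2 k) (fun k _ => F3 k) ≤
        C * (t ^ (1 - c - η) * β ^ (1 / 8 : ℝ) * (√h * (p ^ 2 * √p)) * √ez * 8 ^ K) :=
  box_of_pos2K pos2K_all

end

end Vale.Agent.P141.H120
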