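import Vale.Agent.P141.H120.BoxL
import Vale.Agent.P141.H639.LowC
import Vale.Agent.P141.H927.LowBr

/-!
# P141, centre atoms with one low vector edge: `CenStL3` and `CenStL2`
-/

namespace Vale.Agent.P141.H120

/-- the box price with one low vector edge, letters of `H639.BoxL` -/
theorem boxL : H639.BoxL := box_low

/-- **The price with one low vector edge in the costs of the level.** -/
theorem cenStL3 : H927.CenStL3 := H639.cenStL3_of_box boxL

/-- **The lossless form of the consumer.** -/
theorem cenStL2 : H927.CenStL2 := H927.cenStL2_of_L3 cenStL3

end Vale.Agent.P141.H120
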