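import Vale.Agent.P141.H927.Spec2
import Vale.Agent.P141.H650.Spec.CE1N
import Vale.Agent.P141.H639.CenSt

/-!
# P141, CE with an active set: from normalised data on one box to the costs of the level

`ce1StM_of_M : CE1M → CE1StM`, `cenStM_of_St : CE1StM → CenStM`, `cenStM_of_M`.

The density of the active labels of an edge function is inherited by its parts (`clo_act`).
-/

namespace Vale.Agent.P141.H120

open Finset
open Vale.Agent.P141.PL (Pt fc)
open Vale.Agent.P141.PL.H315 (iv cube3 avg avg_nonneg mem_cube3)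
open Vale.Agent.P141.PL.H95 (gr)
open Vale.Agent.P141.H347.Gs (Ex e2 e2_pos kap cwG)
open Vale.Agent.P141.H736 (cost)
open Vale.Agent.P141.H48 (US ES CmpSt)
open Vale.Agent.P141.H572 (cosF)
open Vale.Agent.P141.H136 (comp)
open Vale.Agent.P141.H639
open Vale.Agent.P141.H971 (Cen)
open Vale.Agent.P141.H650 (cosF_congr cosF_smul cosF_zero Cen.norm Cen.mono_K Cen.zero_of)
open Vale.Agent.P141.H927 (CE1M CE1StM CenStM)

noncomputable section

open scoped Classical

/-- **From normalised data to all data, active set.** -/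
theorem ce1StM_of_M (H : CE1M) : CE1StM := by
  obtain ⟨a, gam, c1, ha, ha', hg, hc1, H⟩ := H
  refine ⟨a, gam, c1, ha, ha', hg, hc1, fun c hc hcc Kt e cP L e0 hK he hcP hL he0 => ?_⟩
  obtain ⟨C, hC, H⟩ := H c hc hcc Kt e cP (L + L / e0) hK he hcP (by positivity)
  refine ⟨e0 * C, by positivity, ?_⟩
  intro t ht ht1 n ez F1 F2 F3 h1 h3 h2 o ho K hKn x V _ _ _ h p g u v X hh hp hcen hu hv hX
  have hez : 0 ≤ ez := h2.1
  rcases hh.eq_or_lt with hz | hh0
  · rw [cosF_congr (F0' := fun _ => 0) (Cen.zero_of hcen (Or.inl hz.symm)), cosF_zero]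
    positivity
  rcases hp.eq_or_lt with hz | hp0
  · rw [cosF_congr (F0' := fun _ => 0) (Cen.zero_of hcen (Or.inr hz.symm)), cosF_zero]
    positivity
  set s : ℝ := (p / h) ^ 2 with hs
  have hph : 0 < p / h := div_pos hp0 hh0
  have hs0 : 0 < s := by positivity
  have hss : √s = p / h := Real.sqrt_sq hph.le
  have hN := Cen.norm hcen hh0 he0
  have hK2 : L * t ^ (2 - c) * (h * p) / (h ^ 2 * e0) = L / e0 * t ^ (2 - c) * √s := by
    rw [hss]
    field_simp
  rw [hK2, ← hss] at hN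
  have hL1 : L / e0 * t ^ (2 - c) * √s ≤ (L + L / e0) * t ^ (2 - c) * √s := by
    have : 0 ≤ L * t ^ (2 - c) * √s := by positivity
    nlinarith
  have hN' := Cen.mono_K hN hL1
  have hX' : (avg (iv K x.1) fun z => if z ∈ X then (1 : ℝ) else 0) * (t ^ 2 * √s) ≤
      (L + L / e0) * (t ^ a * s) := by
    have e1 : (avg (iv K x.1) fun z => if z ∈ X then (1 : ℝ) else 0) * (t ^ 2 * √s) =
        ((avg (iv K x.1) fun z => if z ∈ X then (1 : ℝ) else 0) * (t ^ 2 * (h * p))) *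
          (h ^ 2)⁻¹ := by
      rw [hss]
      field_simp
    have e3 : L * (t ^ a * p ^ 2) * (h ^ 2)⁻¹ = L * (t ^ a * s) := by
      rw [hs]
      field_simp
    have e2 : L * (t ^ a * s) ≤ (L + L / e0) * (t ^ a * s) := by
      have : 0 ≤ L / e0 * (t ^ a * s) := by positivity
      nlinarith
    rw [e1]
    refine (mul_le_mul_of_nonneg_right hX (by positivity)).trans ?_
    rw [e3]
    exact e2
  have key := H t ht ht1 n ez F1 F2 F3 h1 h3 h2 o ho K hKn x V s _ _ _ X hs0 hN'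
    (fun z hz y => by rw [hu z hz y, smul_zero]) (fun z hz y => by rw [hv z hz y, smul_zero]) hX'
  have hse : 0 < √e0 := Real.sqrt_pos.2 he0
  have e1 : cenf 0 1 2 g u v = fun y => (h ^ 3 * e0) *
      comp (fun q => (fun x y => h⁻¹ * g x y) q.1 q.2) (fun z x => (h * √e0)⁻¹ • u z x)
        (fun z y => (h * √e0)⁻¹ • v z y) y := by
    funext y
    show g y.2.1 y.2.2 * inner ℝ (u y.1 y.2.1) (v y.1 y.2.2) = h ^ 3 * e0 *
      ((h⁻¹ * g y.2.1 y.2.2) * inner ℝ ((h * √e0)⁻¹ • u y.1 y.2.1) ((h * √e0)⁻¹ • v y.1 y.2.2))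
    rw [real_inner_smul_left, real_inner_smul_right]
    have h5 : h ^ 3 * e0 * (h⁻¹ * ((h * √e0)⁻¹ * (h * √e0)⁻¹)) = 1 := by
      have h6 : (h * √e0)⁻¹ * (h * √e0)⁻¹ = (h ^ 2 * e0)⁻¹ := by
        rw [← mul_inv, ← sq, mul_pow, Real.sq_sqrt he0.le]
      rw [h6]
      field_simp
    calc g y.2.1 y.2.2 * inner ℝ (u y.1 y.2.1) (v y.1 y.2.2)
        = 1 * (g y.2.1 y.2.2 * inner ℝ (u y.1 y.2.1) (v y.1 y.2.2)) := (one_mul _).symm
      _ = _ := by rw [← h5]; ring
  rw [e1, cosF_smul, abs_of_pos (by positivity)]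
  refine (mul_le_mul_of_nonneg_left key (by positivity)).trans (le_of_eq ?_)
  have h7 : s ^ (5 / 4 : ℝ) = (p / h) ^ 2 * √(p / h) := by
    rw [hs, ← Real.rpow_natCast (p / h) 2, ← Real.rpow_mul hph.le, Real.sqrt_eq_rpow,
      ← Real.rpow_add hph]
    norm_num
  have h8 : h ^ 3 * ((p / h) ^ 2 * √(p / h)) = √h * (p ^ 2 * √p) := by
    rw [Real.sqrt_div hp]
    have h9 : √h * √h = h := Real.mul_self_sqrt hh
    have h10 : 0 < √h := Real.sqrt_pos.2 hh0
    field_simp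
    nlinarith [h9]
  rw [h7]
  calc h ^ 3 * e0 * (C * (t ^ (1 + gam) * ((p / h) ^ 2 * √(p / h)) * √ez * 8 ^ K))
      = e0 * C * (t ^ (1 + gam) * (h ^ 3 * ((p / h) ^ 2 * √(p / h))) * √ez * 8 ^ K) := by ring
    _ = _ := by rw [h8]

/-! ### the active labels of a part -/

section act

variable {V : Type*} [AddCommMonoid V]

/-- the active labels -/
def act (I J : Finset ℤ) (u : ℤ → ℤ → V) : Finset ℤ := I.filter fun z => ∃ y ∈ J, u z y ≠ 0

/-- the density of the active labels, times `D`, is at most `E` -/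
def ActD (D E : ℝ) (I J : Finset ℤ) (u : ℤ → ℤ → V) : Prop :=
  ((I.card : ℝ)⁻¹ * ((act I J u).card : ℝ)) * D ≤ E

theorem card_act_le {I J : Finset ℤ} {f : ℤ → ℤ → V} {I' J' : Finset ℤ} {f' : ℤ → ℤ → V}
    (h : Sub I J f I' J' f') : (act I' J' f').card ≤ (act I J f).card := by
  obtain ⟨K1, K2, s1, s2, h1, h2, h3, h4, h5⟩ := h
  have key : ∀ a ∈ act I' J' f', a ∈ I' ∧ K1 a ∧ s1 a ∈ act I J f := by
    intro a ha
    obtain ⟨ha', b, hb, hne⟩ := mem_filter.1 ha
    by_cases hK : K1 a ∧ K2 b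
    · refine ⟨ha', hK.1, mem_filter.2 ⟨h1 a ha' hK.1, s2 b, h3 b hb hK.2, ?_⟩⟩
      rw [← (h5 a ha' b hb).1 hK]
      exact hne
    · exact absurd ((h5 a ha' b hb).2 hK) hne
  refine card_le_card_of_injOn s1 (fun a ha => (key a ha).2.2) ?_
  intro a ha a' ha' e
  exact h2 a (key a ha).1 a' (key a' ha').1 (key a ha).2.1 (key a' ha').2.1 e

theorem clo_act {D E : ℝ} (hD : 0 ≤ D) : Clo (V := V) (ActD D E) := by
  intro I J f I' J' f' hI _ hs hp
  refine le_trans (mul_le_mul_of_nonneg_right ?_ hD) hp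
  rw [hI]
  refine mul_le_mul_of_nonneg_left ?_ (by positivity)
  exact_mod_cast card_act_le hs

theorem actD_of {D E : ℝ} (hD : 0 ≤ D) {I J : Finset ℤ} {u : ℤ → ℤ → V} {X : Finset ℤ}
    (hu : ∀ z, z ∉ X → ∀ y, u z y = 0)
    (h : (avg I fun z => if z ∈ X then (1 : ℝ) else 0) * D ≤ E) : ActD D E I J u := by
  refine le_trans (mul_le_mul_of_nonneg_right ?_ hD) h
  unfold avg
  refine mul_le_mul_of_nonneg_left ?_ (by positivity)
  rw [← sum_filter, sum_const, nsmul_eq_mul, mul_one]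
  have hsub : act I J u ⊆ I.filter fun z => z ∈ X := by
    intro z hz
    obtain ⟨hz', y, _, hne⟩ := mem_filter.1 hz
    refine mem_filter.2 ⟨hz', ?_⟩
    by_contra hX
    exact hne (hu z hX y)
  exact_mod_cast card_le_card hsub

end act

/-- restriction of a vector edge to the box -/
def rsb {V : Type*} [Zero V] (I J : Finset ℤ) (u : ℤ → ℤ → V) (z y : ℤ) : V :=
  if z ∈ I ∧ y ∈ J then u z y else 0

theorem rsb_eq {V : Type*} [Zero V] {I J : Finset ℤ} {u : ℤ → ℤ → V} {z y : ℤ} (hz : z ∈ I)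
    (hy : y ∈ J) : rsb I J u z y = u z y := if_pos ⟨hz, hy⟩

theorem avg_congr0 {ι : Type*} {Q : Finset ι} {f g : ι → ℝ} (h : ∀ x ∈ Q, f x = g x) :
    avg Q f = avg Q g := by
  unfold avg
  rw [sum_congr rfl h]

theorem cen_rsb {V : Type*} [NormedAddCommGroup V] [InnerProductSpace ℝ V] {A B C : Finset ℤ}
    {h p e W : ℝ} {g : ℤ → ℤ → ℝ} {u v : ℤ → ℤ → V} (H : Cen A B C h p e W g u v) :
    Cen A B C h p e W g (rsb C A u) (rsb C B v) where
  a_le := H.a_le
  a_n2 := H.a_n2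
  a_row := H.a_row
  u_le := fun z hz x hx => by rw [rsb_eq hz hx]; exact H.u_le z hz x hx
  v_le := fun z hz y hy => by rw [rsb_eq hz hy]; exact H.v_le z hz y hy
  u_en := by
    refine le_trans (le_of_eq ?_) H.u_en
    exact avg_congr0 fun z hz => avg_congr0 fun x hx => by rw [rsb_eq hz hx]
  v_en := by
    refine le_trans (le_of_eq ?_) H.v_en
    exact avg_congr0 fun z hz => avg_congr0 fun x hx => by rw [rsb_eq hz hx]
  u_col := fun x hx => by
    refine le_trans (le_of_eq ?_) (H.u_col x hx)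
    exact avg_congr0 fun z hz => by rw [rsb_eq hz hx]
  u_pot := fun z hz w => by
    refine le_trans (le_of_eq ?_) (H.u_pot z hz w)
    exact avg_congr0 fun x hx => by rw [rsb_eq hz hx]
  v_pot := fun z hz w => by
    refine le_trans (le_of_eq ?_) (H.v_pot z hz w)
    exact avg_congr0 fun x hx => by rw [rsb_eq hz hx]

/-- **The costs of the level from CE1, active set.** -/
theorem cenStM_of_St (H : CE1StM) : CenStM := by
  obtain ⟨a, gam, c1, ha, ha', hg, hc1, H⟩ := H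
  refine ⟨a, gam, min c1 1, ha, ha', hg, lt_min hc1 one_pos,
    fun c hc0 hcc Kc L e0 hKc hL he0 => ?_⟩
  set T0 : ℝ := H437.TT with hT0
  have hT : CmpSt 7 T0 := H437.cmpT
  have hT1 : 1 ≤ T0 := by
    rw [hT0]
    unfold H437.TT
    norm_num
  set e1 : ℝ := 1 + Kc + Kc ^ 2 with he1
  have he1' : 1 ≤ e1 := by rw [he1]; nlinarith [sq_nonneg Kc]
  have hTe : 1 ≤ T0 ^ 2 * e1 := one_le_mul_of_one_le_of_one_le (one_le_pow₀ hT1) he1'
  obtain ⟨C, hC, H⟩ := H c hc0 (hcc.trans (min_le_left _ _)) (T0 * Kc) (T0 ^ 2 * e1) 52 (2 * L) e0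
    (mul_pos (by linarith) hKc) hTe (by norm_num) (by linarith) he0
  refine ⟨8 * (1521 ^ 2 * (8 * (C * √(T0 ^ 2 * e1)))), by positivity, ?_⟩
  intro e heK hec σ r j k x q l m n hd V _ _ _ h p g u v X hh hp hcen hu hv hX
  set t : ℝ := e2 (-1) j with ht
  have ht0 : 0 < t := e2_pos _ _
  have ht1 : t ≤ 1 := e2_neg_one_le j
  set Y : ℝ := C * (t ^ (1 + gam) * (√h * (p ^ 2 * √p)) * √(T0 ^ 2 * e1) * 8 ^ k) with hY
  have hY0 : 0 ≤ Y := by positivity
  have htc : (e.mp j).t = Kc * t ^ (1 - c) := by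
    show e.K * e2 (-(1 - e.c)) j = _
    rw [heK, hec, ht, e2_neg_one_rpow]
  have htc1 : t ^ (1 - c) ≤ 1 :=
    Real.rpow_le_one ht0.le ht1 (by have := hcc.trans (min_le_right c1 1); linarith)
  have htc0 : 0 < t ^ (1 - c) := Real.rpow_pos_of_pos ht0 _
  have hE : (e.mp j).E ≤ e1 := by
    show e.K ≤ e1
    rw [heK, he1]
    nlinarith [sq_nonneg Kc]
  have hte : (e.mp j).t ^ 2 ≤ e1 := by
    rw [htc, mul_pow, he1]
    have h1 : (t ^ (1 - c)) ^ 2 ≤ 1 := pow_le_one₀ htc0.le htc1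
    nlinarith [sq_nonneg Kc, mul_le_mul_of_nonneg_left h1 (sq_nonneg Kc)]
  have hKp : L * e2 (-(2 - c)) j * (h * p) = L * t ^ (2 - c) * (h * p) := by
    rw [ht, e2_neg_one_rpow]
  have hKp0 : 0 ≤ L * t ^ (2 - c) * (h * p) := by positivity
  rw [hKp] at hcen
  -- the active set
  set D : ℝ := t ^ 2 * (h * p) with hD
  set E : ℝ := L * (t ^ a * p ^ 2) with hEd
  have hD0 : 0 ≤ D := by positivity
  have e2a : e2 (-a) j = t ^ a := by rw [ht, e2_neg_one_rpow]
  have e22 : e2 (-2) j = t ^ 2 := by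
    have h := e2_neg_one_rpow 2 j
    rw [Real.rpow_two] at h
    rw [ht]
    exact h.symm
  rw [e22, e2a] at hX
  -- the box cost
  have hB : CeB k (T0 * (e.mp j).t) (T0 ^ 2 * e1) Y
      (CenC k (PCen h p)
        (fun I J f => QCen (V := V) h p e0 (L * t ^ (2 - c) * (h * p)) I J f ∧ ActD D E I J f)
        (fun I J f => RCen (V := V) h p e0 (L * t ^ (2 - c) * (h * p)) I J f ∧ ActD D E I J f)
        0 1 2) := by
    rintro n' hn' F1 F2 F3 h1 h2 h3 o ho y f ⟨g', u', v', rfl, ha1, hb, hc'⟩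
    have e1' : T0 * (e.mp j).t = T0 * Kc * t ^ (1 - c) := by rw [htc]; ring
    rw [e1'] at h1 h3
    have hC1 : Cen (iv k y.2.1) (iv k y.2.2) (iv k y.1) h p e0 (L * t ^ (2 - c) * (h * p))
        g' u' v' := cen_iff.2 ⟨ha1, hb.1, hc'.1⟩
    have hC2 : Cen (iv k y.2.1) (iv k y.2.2) (iv k y.1) h p e0 (2 * L * t ^ (2 - c) * (h * p))
        g' (rsb (iv k y.1) (iv k y.2.1) u') (rsb (iv k y.1) (iv k y.2.2) v') :=
      Cen.mono_K (cen_rsb hC1) (by nlinarith [hKp0])
    have hAu := hb.2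
    have hAv := hc'.2
    set X' : Finset ℤ := act (iv k y.1) (iv k y.2.1) u' ∪ act (iv k y.1) (iv k y.2.2) v' with hX'
    have q1 : ∀ z, z ∉ X' → ∀ w, rsb (iv k y.1) (iv k y.2.1) u' z w = 0 := by
      intro z hz w
      unfold rsb
      split_ifs with hzw
      · by_contra hne
        exact hz (mem_union_left _ (mem_filter.2 ⟨hzw.1, w, hzw.2, hne⟩))
      · rfl
    have q2 : ∀ z, z ∉ X' → ∀ w, rsb (iv k y.1) (iv k y.2.2) v' z w = 0 := by
      intro z hz w
      unfold rsb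
      split_ifs with hzw
      · by_contra hne
        exact hz (mem_union_right _ (mem_filter.2 ⟨hzw.1, w, hzw.2, hne⟩))
      · rfl
    have q3 : (avg (iv k y.1) fun z => if z ∈ X' then (1 : ℝ) else 0) * (t ^ 2 * (h * p)) ≤
        2 * L * (t ^ a * p ^ 2) := by
      have w1 : (avg (iv k y.1) fun z => if z ∈ X' then (1 : ℝ) else 0) ≤
          ((iv k y.1).card : ℝ)⁻¹ * ((act (iv k y.1) (iv k y.2.1) u').card : ℝ) +
          ((iv k y.1).card : ℝ)⁻¹ * ((act (iv k y.1) (iv k y.2.2) v').card : ℝ) := by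
        unfold avg
        rw [← mul_add]
        refine mul_le_mul_of_nonneg_left ?_ (by positivity)
        rw [← sum_filter, sum_const, nsmul_eq_mul, mul_one]
        have w2 : ((iv k y.1).filter fun z => z ∈ X').card ≤
            (act (iv k y.1) (iv k y.2.1) u').card + (act (iv k y.1) (iv k y.2.2) v').card := by
          refine (card_le_card ?_).trans (card_union_le _ _)
          intro z hz
          exact (mem_filter.1 hz).2
        exact_mod_cast w2
      have w3 := mul_le_mul_of_nonneg_right w1 hD0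
      have w4 : ((iv k y.1).card : ℝ)⁻¹ * ((act (iv k y.1) (iv k y.2.1) u').card : ℝ) * D ≤ E := hAu
      have w5 : ((iv k y.1).card : ℝ)⁻¹ * ((act (iv k y.1) (iv k y.2.2) v').card : ℝ) * D ≤ E := hAv
      rw [add_mul] at w3
      have w6 : E + E = 2 * L * (t ^ a * p ^ 2) := by rw [hEd]; ring
      linarith
    have key := H t ht0 ht1 n' (T0 ^ 2 * e1) F1 F2 F3 h1 h3 h2 o ho k hn' y V h p g' _ _ X' hh hp
      hC2 q1 q2 q3
    refine le_trans (le_of_eq ?_) key
    refine cosF_congr fun z hz => ?_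
    obtain ⟨z1, z2, z3⟩ := mem_cube3.1 hz
    show g' z.2.1 z.2.2 * inner ℝ (u' z.1 z.2.1) (v' z.1 z.2.2) =
      g' z.2.1 z.2.2 * inner ℝ (rsb (iv k y.1) (iv k y.2.1) u' z.1 z.2.1)
        (rsb (iv k y.1) (iv k y.2.2) v' z.1 z.2.2)
    rw [rsb_eq z1 z2, rsb_eq z1 z3]
  obtain ⟨h1, h2, h3⟩ := cen_iff.1 hcen
  have key : ∀ a : Fin 4 × Bool, cost (((e.mp j).cw σ r).κ a) (((e.mp j).cw σ r).o a) r
      (pfw (fc r) k q (cenf l m n g u v)) k ((gr 7 σ).cube k x) ≤ 1521 ^ 2 * (8 * Y) := fun a =>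
    cost_cen (clo_pcen hh hp) ((clo_qcen hh hp he0.le hKp0).and (clo_act hD0))
      ((clo_rcen hh hp he0.le hKp0).and (clo_act hD0)) hT1 hT hE
      hte hY0 hB a.1 r (((e.mp j).cw σ r).ho a) hd
      ⟨g, u, v, rfl, h1, ⟨h2, actD_of hD0 hu hX⟩, ⟨h3, actD_of hD0 hv hX⟩⟩ x
  have e2' : ((e.mp j).cw σ r).cst (pfw (fc r) k q (cenf l m n g u v)) k
      ((gr 7 σ).cube k x) ≤ ∑ _a : Fin 4 × Bool, 1521 ^ 2 * (8 * Y) := by
    refine sum_le_sum fun a _ => ?_
    have : ((e.mp j).cw σ r).nrm a = 1 := rfl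
    rw [this, div_one]
    exact key a
  refine e2'.trans (le_of_eq ?_)
  rw [sum_const, card_univ, Fintype.card_prod, Fintype.card_fin, Fintype.card_bool, nsmul_eq_mul,
    hY, ht, e2_neg_one_rpow]
  push_cast
  ring

/-- **CE1M gives CenStM.** -/
theorem cenStM_of_M (H : CE1M) : CenStM := cenStM_of_St (ce1StM_of_M H)

end

end Vale.Agent.P141.H120
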