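import Vale.Agent.P141.H572.CE0
import Vale.Agent.P141.H639.PermV
import Vale.Agent.P141.H971.Cen

/-!
# P141, the forced role weight: labels and low vector edges

* `X1 Q u = nN (e12) nN (e23) n2 (e13)`: the middle term of the pair weight;
* `avg_X1`, `cosF_priceK`: a price in the weight `k1 X1 + k2 pw3` for scalar atoms is one for
  composite atoms;
* `cosF_cen_low`: centre data at the positions `1 0 2` with one low vector edge.
-/

namespace Vale.Agent.P141.H120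

open Finset
open Vale.Agent.P141.PL (Pt)
open Vale.Agent.P141.PL.H315 (avg avg_nonneg atm e12 e13 e23 Tri cube3 iv)
open Vale.Agent.P141.H550
open Vale.Agent.P141.H922 (n2 n4 nN pw3 wP pw3_nonneg n2_nonneg n4_nonneg nN_nonneg n2_sq
  n4_four nN_sq nN_e12 nN_e13 nN_e23 n2_e12 n2_e13 n2_e23)
open Vale.Agent.P141.H204
open Vale.Agent.P141.H572
open Vale.Agent.P141.H639 (cenf co)
open Vale.Agent.P141.H971 (Cen)
open Vale.Agent.P141.H834 (gf)

noncomputable section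

/-- the middle term of the pair weight -/
def X1 (Q : Finset (ℤ × ℤ × ℤ)) (u : Tri) : ℝ :=
  nN Q (e12 u.1) * nN Q (e23 u.2.2) * n2 Q (e13 u.2.1)

theorem X1_nonneg (Q : Finset (ℤ × ℤ × ℤ)) (u : Tri) : 0 ≤ X1 Q u :=
  mul_nonneg (mul_nonneg (nN_nonneg _ _) (nN_nonneg _ _)) (n2_nonneg _ _)

theorem X1_congr (Q : Finset (ℤ × ℤ × ℤ)) {u u' : Tri} (h1 : ∀ x, u.1 x ^ 2 = u'.1 x ^ 2)
    (h2 : ∀ x, u.2.1 x ^ 2 = u'.2.1 x ^ 2) (h3 : ∀ x, u.2.2 x ^ 2 = u'.2.2 x ^ 2) :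
    X1 Q u = X1 Q u' := by
  unfold X1 nN
  rw [n2_abs' Q (f := e12 u.1) (g := e12 u'.1) fun x => h1 _,
    n4_abs' Q (f := e12 u.1) (g := e12 u'.1) fun x => h1 _,
    n2_abs' Q (f := e13 u.2.1) (g := e13 u'.2.1) fun x => h2 _,
    n2_abs' Q (f := e23 u.2.2) (g := e23 u'.2.2) fun x => h3 _,
    n4_abs' Q (f := e23 u.2.2) (g := e23 u'.2.2) fun x => h3 _]

section labels

variable {κ1 κ2 κ3 : Type*} [Fintype κ1] [Fintype κ2] [Fintype κ3]
  [DecidableEq κ1] [DecidableEq κ2] [DecidableEq κ3]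

/-- **The middle term of the random scalar atom.** -/
theorem avg_X1 (Q : Finset (ℤ × ℤ × ℤ)) (a : κ1 → κ2 → ℤ × ℤ → ℝ) (b : κ1 → κ3 → ℤ × ℤ → ℝ)
    (c : κ2 → κ3 → ℤ × ℤ → ℝ) :
    (avg univ fun w => X1 Q (rt a b c w)) ≤ 6 * X1 Q (vt a b c) := by
  have a4 := (avg_sg12 (κ3 := κ3) fun ε δ => n4 Q (e12 (dv a ε δ)) ^ 4).le.trans
    (avg_n4_dv Q fun l m => e12 (a l m))
  have a2 := (avg_sg12 (κ3 := κ3) fun ε δ => n2 Q (e12 (dv a ε δ)) ^ 4).le.trans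
    (avg_n2_dv Q fun l m => e12 (a l m))
  have b2 := (avg_sg13 (κ2 := κ2) fun ε γ => n2 Q (e13 (dv b ε γ)) ^ 4).le.trans
    (avg_n2_dv Q fun l m => e13 (b l m))
  have c4 := (avg_sg23 (κ1 := κ1) fun δ γ => n4 Q (e23 (dv c δ γ)) ^ 4).le.trans
    (avg_n4_dv Q fun l m => e23 (c l m))
  have c2 := (avg_sg23 (κ1 := κ1) fun δ γ => n2 Q (e23 (dv c δ γ)) ^ 4).le.trans
    (avg_n2_dv Q fun l m => e23 (c l m))
  have aN := avg_nN_four (f := fun w : Sg κ1 κ2 κ3 => e12 (dv a w.1 w.2.1)) a2 a4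
  have cN := avg_nN_four (f := fun w : Sg κ1 κ2 κ3 => e23 (dv c w.2.1 w.2.2)) c2 c4
  have k2 := avg_prod3 (nN_nonneg _ _) (nN_nonneg _ _) (n2_nonneg _ _) aN cN b2
  unfold X1
  refine k2.trans (le_of_eq ?_)
  show _ = 6 * X1 Q (vt a b c)
  unfold X1 vt
  have ea : (vn2 fun l m => e12 (a l m)) = e12 (vn2 a) := rfl
  have eb : (vn2 fun l m => e13 (b l m)) = e13 (vn2 b) := rfl
  have ec : (vn2 fun l m => e23 (c l m)) = e23 (vn2 c) := rfl
  rw [ea, eb, ec]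

variable (a : κ1 → κ2 → ℤ × ℤ → ℝ) (b : κ1 → κ3 → ℤ × ℤ → ℝ) (c : κ2 → κ3 → ℤ × ℤ → ℝ)

/-- **The price in the weight `k1 X1 + k2 pw3`**, composite atoms. -/
theorem cosF_priceK {o : ℤ} {K : ℕ} {x : Pt} {F1 F2 F3 : ℕ → Pt → Pt → ℝ} {P k1 k2 : ℝ}
    (hP : 0 ≤ P) (hk1 : 0 ≤ k1) (hk2 : 0 ≤ k2)
    (h : ∀ u : Tri, cosF o K x (atm u) F1 F2 F3 ≤
      P * (8 ^ K * (k1 * X1 (cube3 K x) u + k2 * pw3 (cube3 K x) u))) :
    cosF o K x (catm a b c) F1 F2 F3 ≤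
      6 * P * (8 ^ K * (k1 * X1 (cube3 K x) (vt a b c) + k2 * pw3 (cube3 K x) (vt a b c))) := by
  refine (cosF_le a b c o K x F1 F2 F3).trans ((avg_mono fun w _ => h _).trans ?_)
  rw [avg_mul_left, avg_mul_left, avg_add, avg_mul_left, avg_mul_left]
  have h1 := mul_le_mul_of_nonneg_left (avg_X1 (cube3 K x) a b c) hk1
  have h2 := mul_le_mul_of_nonneg_left (avg_pw3 (cube3 K x) a b c) hk2
  have h3 : (0 : ℝ) ≤ P * 8 ^ K := by positivity
  have h4 := mul_le_mul_of_nonneg_left (add_le_add h1 h2) h3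
  linarith

end labels

/-- labels at the second vertex -/
theorem cosF_priceK2 {κ : Type*} [Fintype κ] [DecidableEq κ] {o : ℤ} {K : ℕ} {x : Pt}
    {F1 F2 F3 : ℕ → Pt → Pt → ℝ} {P k1 k2 : ℝ} (hP : 0 ≤ P) (hk1 : 0 ≤ k1) (hk2 : 0 ≤ k2)
    (h : ∀ u : Tri, cosF o K x (atm u) F1 F2 F3 ≤
      P * (8 ^ K * (k1 * X1 (cube3 K x) u + k2 * pw3 (cube3 K x) u)))
    (g : ℤ × ℤ → ℝ) (v u : κ → ℤ × ℤ → ℝ) :
    cosF o K x (catm2 g v u) F1 F2 F3 ≤ 6 * P * (8 ^ K * (k1 * X1 (cube3 K x) (vn v, g, vn u) +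
      k2 * pw3 (cube3 K x) (vn v, g, vn u))) := by
  have e1 := X1_congr (cube3 K x) (u := vt (fun _ : Unit => v) (fun _ _ : Unit => g)
    (fun n (_ : Unit) => u n)) (u' := (vn v, g, vn u)) (vn2_left v) (vn2_unit g) (vn2_right u)
  have e2 := pw3_congr (cube3 K x) (u := vt (fun _ : Unit => v) (fun _ _ : Unit => g)
    (fun n (_ : Unit) => u n)) (u' := (vn v, g, vn u)) (vn2_left v) (vn2_unit g) (vn2_right u)
  rw [catm2_eq, ← e1, ← e2]
  exact cosF_priceK _ _ _ hP hk1 hk2 h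

/-! ### the norms of bounded edges -/

/-- an edge of height `√H` and mass `M` -/
theorem n4_le_of {X : Type*} {Q : Finset X} {f : X → ℝ} {H M : ℝ} (hH : 0 ≤ H)
    (hM : (avg Q fun x => f x ^ 2) ≤ M) (hf : ∀ x ∈ Q, f x ^ 2 ≤ H) : n4 Q f ≤ √√(H * M) := by
  unfold n4
  refine Real.sqrt_le_sqrt (Real.sqrt_le_sqrt ?_)
  have h1 : (avg Q fun x => f x ^ 4) ≤ avg Q fun x => H * f x ^ 2 := by
    refine avg_mono fun x hx => ?_
    have h2 := mul_le_mul_of_nonneg_right (hf x hx) (sq_nonneg (f x))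
    calc f x ^ 4 = f x ^ 2 * f x ^ 2 := by ring
      _ ≤ _ := h2
  refine h1.trans ?_
  rw [avg_mul_left]
  exact mul_le_mul_of_nonneg_left hM hH

theorem n2_le_of {X : Type*} {Q : Finset X} {f : X → ℝ} {M : ℝ}
    (hM : (avg Q fun x => f x ^ 2) ≤ M) : n2 Q f ≤ √M := Real.sqrt_le_sqrt hM

/-- the numbers of an edge: height `B h √e`, energy `e p²` -/
theorem edge_num {X : Type*} {Q : Finset X} {f : X → ℝ} {B h p e : ℝ} (hB : 0 ≤ B) (hh : 0 ≤ h)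
    (hp : 0 ≤ p) (he : 0 ≤ e) (hM : (avg Q fun x => f x ^ 2) ≤ e * p ^ 2)
    (hf : ∀ x ∈ Q, f x ^ 2 ≤ B ^ 2 * (h ^ 2 * e)) :
    n2 Q f ≤ √e * p ∧ nN Q f ≤ √√B * (√e * √(p * √(h * p))) := by
  have h2 : n2 Q f ≤ √e * p := by
    refine (n2_le_of hM).trans (le_of_eq ?_)
    rw [Real.sqrt_mul he, Real.sqrt_sq hp]
  have h4 : n4 Q f ≤ √B * (√e * √(h * p)) := by
    refine (n4_le_of (by positivity) hM hf).trans (le_of_eq ?_)
    rw [show B ^ 2 * (h ^ 2 * e) * (e * p ^ 2) = (B * (e * (h * p))) ^ 2 by ring,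
      Real.sqrt_sq (by positivity), Real.sqrt_mul hB, Real.sqrt_mul he]
  refine ⟨h2, ?_⟩
  unfold nN
  refine (Real.sqrt_le_sqrt (mul_le_mul h2 h4 (n4_nonneg _ _) (by positivity))).trans
    (le_of_eq ?_)
  rw [show √e * p * (√B * (√e * √(h * p))) = √B * (√e * √e * (p * √(h * p))) by ring,
    Real.sqrt_mul (Real.sqrt_nonneg _), Real.mul_self_sqrt he, Real.sqrt_mul he]

/-- the product of the numbers -/
theorem num_eq {h p : ℝ} (hh : 0 ≤ h) (hp : 0 ≤ p) :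
    √(p * √(h * p)) * √(p * √(h * p)) * p = √h * (p ^ 2 * √p) := by
  rw [Real.mul_self_sqrt (by positivity), Real.sqrt_mul hh]
  ring

theorem avg_prod_comm {X Y : Type*} (A : Finset X) (B : Finset Y) (f : X → Y → ℝ) :
    (avg (A ×ˢ B) fun q => f q.1 q.2) = avg B fun y => avg A fun x => f x y := by
  rw [avg_prod]
  unfold Vale.Agent.P141.PL.H315.avg
  rw [mul_sum, mul_sum]
  simp only [mul_sum]
  rw [sum_comm]
  exact sum_congr rfl fun _ _ => sum_congr rfl fun _ _ => by ring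

variable {V : Type*} [NormedAddCommGroup V] [InnerProductSpace ℝ V]

/-- **Centre data at the positions `1 0 2` with one low vector edge**: the gauge sits on the edge
of the moving slot `F2`. -/
theorem cosF_cen_low [FiniteDimensional ℝ V] {o : ℤ} {K : ℕ} {x : Pt}
    {F1 F2 F3 : ℕ → Pt → Pt → ℝ} {P k1 k2 : ℝ} (hP : 0 ≤ P) (hk1 : 0 ≤ k1) (hk2 : 0 ≤ k2)
    (hS : ∀ u : Tri, cosF o K x (atm u) F1 F2 F3 ≤
      P * (8 ^ K * (k1 * X1 (cube3 K x) u + k2 * pw3 (cube3 K x) u)))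
    {h p e W B : ℝ} {g : ℤ → ℤ → ℝ} {u v : ℤ → ℤ → V} (hh : 0 ≤ h) (hp : 0 ≤ p) (he : 0 ≤ e)
    (hB : 0 ≤ B) (hC : Cen (iv K x.1) (iv K x.2.2) (iv K x.2.1) h p e W g u v)
    (hl : (∀ z ∈ iv K x.2.1, ∀ y ∈ iv K x.1, ‖u z y‖ ^ 2 ≤ B ^ 2 * (h ^ 2 * e)) ∨
      ∀ z ∈ iv K x.2.1, ∀ y ∈ iv K x.2.2, ‖v z y‖ ^ 2 ≤ B ^ 2 * (h ^ 2 * e)) :
    cosF o K x (cenf 1 0 2 g u v) F1 F2 F3 ≤
      18 * e * P * (8 ^ K * ((k1 * √√B + k2) * (√h * (p ^ 2 * √p)))) := by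
  classical
  set b := stdOrthonormalBasis ℝ V with hb
  have e0 : cenf 1 0 2 g u v = catm2 (fun w => g w.1 w.2)
      (fun i w => inner ℝ (b i) (u w.2 w.1)) (fun i w => inner ℝ (b i) (v w.1 w.2)) := by
    funext y
    show g y.1 y.2.2 * inner ℝ (u y.2.1 y.1) (v y.2.1 y.2.2) = _
    unfold catm2
    rw [← b.sum_inner_mul_inner (u y.2.1 y.1) (v y.2.1 y.2.2), mul_sum]
    refine sum_congr rfl fun i _ => ?_
    unfold atm e12 e13 e23
    simp only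
    rw [real_inner_comm (b i) (u y.2.1 y.1)]
    ring
  have hnorm : ∀ w : V, (∑ i, (inner ℝ (b i) w : ℝ) ^ 2) = ‖w‖ ^ 2 := fun w => by
    have h1 := b.sum_inner_mul_inner w w
    rw [real_inner_self_eq_norm_sq] at h1
    rw [← h1]
    refine sum_congr rfl fun i _ => ?_
    rw [real_inner_comm (b i) w]
    ring
  set fu : ℤ × ℤ → ℝ := vn fun i w => inner ℝ (b i) (u w.2 w.1) with hfu
  set fv : ℤ × ℤ → ℝ := vn fun i w => inner ℝ (b i) (v w.1 w.2) with hfv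
  set fg : ℤ × ℤ → ℝ := fun w => g w.1 w.2 with hfg
  have su : ∀ w, fu w ^ 2 = ‖u w.2 w.1‖ ^ 2 := fun w => by
    rw [hfu, vn_sq]; exact hnorm _
  have sv : ∀ w, fv w ^ 2 = ‖v w.1 w.2‖ ^ 2 := fun w => by
    rw [hfv, vn_sq]; exact hnorm _
  have key := cosF_priceK2 hP hk1 hk2 hS (fun w => g w.1 w.2)
    (fun i w => inner ℝ (b i) (u w.2 w.1)) (fun i w => inner ℝ (b i) (v w.1 w.2))
  rw [← e0] at key
  refine key.trans ?_
  -- masses
  have mu : (avg (iv K x.1 ×ˢ iv K x.2.1) fun w => fu w ^ 2) ≤ e * p ^ 2 := by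
    refine le_trans (le_of_eq ?_) hC.u_en
    simp only [su]
    exact avg_prod_comm (iv K x.1) (iv K x.2.1) fun a c => ‖u c a‖ ^ 2
  have mv : (avg (iv K x.2.1 ×ˢ iv K x.2.2) fun w => fv w ^ 2) ≤ e * p ^ 2 := by
    refine le_trans (le_of_eq ?_) hC.v_en
    simp only [sv]
    exact avg_prod _ _ _
  have mg : (avg (iv K x.1 ×ˢ iv K x.2.2) fun w => fg w ^ 2) ≤ 1 * p ^ 2 := by
    have h1 := pow_le_pow_left₀ (n2_nonneg _ _) hC.a_n2 2
    rw [n2_sq] at h1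
    rw [one_mul]
    exact h1
  -- heights
  have tu : ∀ w ∈ iv K x.1 ×ˢ iv K x.2.1, fu w ^ 2 ≤ 1 ^ 2 * (h ^ 2 * e) := fun w hw => by
    rw [su, one_pow, one_mul]
    exact hC.u_le _ (mem_product.1 hw).2 _ (mem_product.1 hw).1
  have tv : ∀ w ∈ iv K x.2.1 ×ˢ iv K x.2.2, fv w ^ 2 ≤ 1 ^ 2 * (h ^ 2 * e) := fun w hw => by
    rw [sv, one_pow, one_mul]
    exact hC.v_le _ (mem_product.1 hw).1 _ (mem_product.1 hw).2
  have tg : ∀ w ∈ iv K x.1 ×ˢ iv K x.2.2, fg w ^ 2 ≤ 1 ^ 2 * (h ^ 2 * 1) := fun w hw => by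
    rw [one_pow, one_mul, mul_one]
    have h1 := hC.a_le _ (mem_product.1 hw).1 _ (mem_product.1 hw).2
    rw [← sq_abs]
    exact pow_le_pow_left₀ (abs_nonneg _) h1 2
  obtain ⟨u2, uN⟩ := edge_num zero_le_one hh hp he mu tu
  obtain ⟨v2, vN⟩ := edge_num zero_le_one hh hp he mv tv
  obtain ⟨g2, gN⟩ := edge_num zero_le_one hh hp zero_le_one mg tg
  rw [Real.sqrt_one, Real.sqrt_one, one_mul] at uN vN gN
  rw [one_mul] at gN
  rw [Real.sqrt_one, one_mul] at g2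
  set S : ℝ := √(p * √(h * p)) with hS'
  have hS0 : 0 ≤ S := Real.sqrt_nonneg _
  have hSS : S * S * p = √h * (p ^ 2 * √p) := num_eq hh hp
  have hse : √e * √e = e := Real.mul_self_sqrt he
  have hse0 : 0 ≤ √e := Real.sqrt_nonneg _
  set T : ℝ := √h * (p ^ 2 * √p) with hT
  have hT0 : 0 ≤ T := by positivity
  -- the middle term
  have x1 : X1 (cube3 K x) (fu, fg, fv) ≤ e * √√B * T := by
    unfold X1
    simp only
    rw [nN_e12, nN_e23, n2_e13]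
    rcases hl with hl | hl
    · have tu' : ∀ w ∈ iv K x.1 ×ˢ iv K x.2.1, fu w ^ 2 ≤ B ^ 2 * (h ^ 2 * e) := fun w hw => by
        rw [su]
        exact hl _ (mem_product.1 hw).2 _ (mem_product.1 hw).1
      have uN' := (edge_num hB hh hp he mu tu').2
      calc _ ≤ √√B * (√e * S) * (√e * S) * p :=
            mul_le_mul (mul_le_mul uN' vN (nN_nonneg _ _) (by positivity)) g2 (n2_nonneg _ _)
              (by positivity)
        _ = (√e * √e) * √√B * (S * S * p) := by ring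
        _ = _ := by rw [hse, hSS]
    · have tv' : ∀ w ∈ iv K x.2.1 ×ˢ iv K x.2.2, fv w ^ 2 ≤ B ^ 2 * (h ^ 2 * e) := fun w hw => by
        rw [sv]
        exact hl _ (mem_product.1 hw).1 _ (mem_product.1 hw).2
      have vN' := (edge_num hB hh hp he mv tv').2
      calc _ ≤ (√e * S) * (√√B * (√e * S)) * p :=
            mul_le_mul (mul_le_mul uN vN' (nN_nonneg _ _) (by positivity)) g2 (n2_nonneg _ _)
              (by positivity)
        _ = (√e * √e) * √√B * (S * S * p) := by ring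
        _ = _ := by rw [hse, hSS]
  -- the pair weight
  have x3 : pw3 (cube3 K x) (fu, fg, fv) ≤ 3 * (e * T) := by
    unfold pw3
    simp only
    rw [nN_e12, nN_e13, nN_e23, n2_e12, n2_e13, n2_e23]
    have w1 : nN (iv K x.1 ×ˢ iv K x.2.1) fu * nN (iv K x.1 ×ˢ iv K x.2.2) fg *
        n2 (iv K x.2.1 ×ˢ iv K x.2.2) fv ≤ e * T := by
      calc _ ≤ (√e * S) * S * (√e * p) :=
            mul_le_mul (mul_le_mul uN gN (nN_nonneg _ _) (by positivity)) v2 (n2_nonneg _ _)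
              (by positivity)
        _ = (√e * √e) * (S * S * p) := by ring
        _ = _ := by rw [hse, hSS]
    have w2 : nN (iv K x.1 ×ˢ iv K x.2.1) fu * nN (iv K x.2.1 ×ˢ iv K x.2.2) fv *
        n2 (iv K x.1 ×ˢ iv K x.2.2) fg ≤ e * T := by
      calc _ ≤ (√e * S) * (√e * S) * p :=
            mul_le_mul (mul_le_mul uN vN (nN_nonneg _ _) (by positivity)) g2 (n2_nonneg _ _)
              (by positivity)
        _ = (√e * √e) * (S * S * p) := by ring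
        _ = _ := by rw [hse, hSS]
    have w3 : nN (iv K x.1 ×ˢ iv K x.2.2) fg * nN (iv K x.2.1 ×ˢ iv K x.2.2) fv *
        n2 (iv K x.1 ×ˢ iv K x.2.1) fu ≤ e * T := by
      calc _ ≤ S * (√e * S) * (√e * p) :=
            mul_le_mul (mul_le_mul gN vN (nN_nonneg _ _) (by positivity)) u2 (n2_nonneg _ _)
              (by positivity)
        _ = (√e * √e) * (S * S * p) := by ring
        _ = _ := by rw [hse, hSS]
    linarith
  have y1 := mul_le_mul_of_nonneg_left x1 hk1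
  have y2 := mul_le_mul_of_nonneg_left x3 hk2
  have y3 : k1 * X1 (cube3 K x) (fu, fg, fv) + k2 * pw3 (cube3 K x) (fu, fg, fv) ≤
      3 * e * ((k1 * √√B + k2) * T) := by
    have : 0 ≤ k1 * (e * √√B * T) := by positivity
    nlinarith
  have y4 : (0 : ℝ) ≤ 6 * P * 8 ^ K := by positivity
  have y5 := mul_le_mul_of_nonneg_left y3 y4
  calc 6 * P * (8 ^ K * (k1 * X1 (cube3 K x) (fu, fg, fv) + k2 * pw3 (cube3 K x) (fu, fg, fv)))
      = 6 * P * 8 ^ K * (k1 * X1 (cube3 K x) (fu, fg, fv) + k2 * pw3 (cube3 K x) (fu, fg, fv)) := by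
        ring
    _ ≤ _ := y5
    _ = _ := by ring

end

end Vale.Agent.P141.H120
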